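import Mathlib

/-!
Definitions for the cyclic kite: the candidate Ramsey set that is not subtransitive.
-/

namespace Vale.Agent.P058.Kite

/-- Euclidean space. -/
abbrev Sp (n : ℕ) := EuclideanSpace ℝ (Fin n)

/-- The cyclic kite with axis points `(±1, 0)` and the symmetric pair `(α, ±√(1 - α²))`. -/
noncomputable def pts (α : ℝ) : Fin 4 → Sp 2 :=
  ![!₂[1, 0], !₂[-1, 0], !₂[α, √(1 - α ^ 2)], !₂[α, -√(1 - α ^ 2)]]

/-- A finite family of points can be realised monochromatically in every finite colouring. -/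
def IsRamsey {ι E : Type*} [Dist E] (a : ι → E) : Prop :=
  ∀ r : ℕ, 2 ≤ r → ∃ D : ℕ, 1 ≤ D ∧ ∀ col : Sp D → Fin r,
    ∃ f : ι → Sp D, (∀ i j, dist (f i) (f j) = dist (a i) (a j)) ∧ ∀ i j, col (f i) = col (f j)

/-- A finite family of points lies, up to congruence, in a finite transitive set. -/
def IsSubtransitive {ι E : Type*} [Dist E] (a : ι → E) : Prop :=
  ∃ (n : ℕ) (X : Finset (Sp n)),
    (∀ x ∈ X, ∀ y ∈ X, ∃ g : Sp n ≃ᵢ Sp n, g '' (X : Set (Sp n)) = X ∧ g x = y) ∧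
    ∃ f : ι → Sp n, (∀ i, f i ∈ X) ∧ ∀ i j, dist (f i) (f j) = dist (a i) (a j)

end Vale.Agent.P058.Kite
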