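import Vale.Agent.P058.Kite.Words

/-!
As they stand the rows of the kite are nearly equal, while the shifted rows carry a copy of it.
-/

namespace Vale.Agent.P058.Kite

open Finset

variable {α : ℝ}

/-- The two signals. -/
noncomputable def wave (N : ℕ) (a b : ℝ) (m : ℕ) : ℝ :=
  a * Real.cos (Real.pi / N * m) + b * Real.sin (Real.pi / N * m)

lemma abs_mix_bound (h : |α| < 1) (T : Fin 4 → ℝ) (hT : ∀ j, |T j| ≤ 1) :
    cu (mix α T) ^ 2 + cw α (mix α T) ^ 2 ≤ (1 + 3 / (1 - α)) ^ 2 + (4 / ht α) ^ 2 := by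
  obtain ⟨h1, h2⟩ := abs_lt.1 h
  have hα : 0 < 1 - α := by linarith
  have hh := ht_pos h
  have t0 := abs_le.1 (hT 0)
  have t1 := abs_le.1 (hT 1)
  have t2 := abs_le.1 (hT 2)
  have t3 := abs_le.1 (hT 3)
  refine add_le_add (sq_le_sq' ?_ ?_) (sq_le_sq' ?_ ?_)
  all_goals
    simp only [cu, cw, mix, Matrix.cons_val_zero, Matrix.cons_val_one, Matrix.cons_val]
    field_simp
    nlinarith

lemma wave_abs (N : ℕ) {a b : ℝ} (hab : |a| + |b| ≤ 1) (m : ℕ) : |wave N a b m| ≤ 1 := by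
  unfold wave
  refine (abs_add_le _ _).trans ?_
  rw [abs_mul, abs_mul]
  nlinarith [abs_nonneg a, abs_nonneg b, Real.abs_cos_le_one (Real.pi / N * m),
    Real.abs_sin_le_one (Real.pi / N * m)]

lemma flat_bound (h : |α| < 1) (N s L : ℕ) {a b : ℝ} (hab : |a| + |b| ≤ 1) (n : ℕ) :
    cu (fun i => row α N s (win L (wave N a b)) i n) ^ 2
      + cw α (fun i => row α N s (win L (wave N a b)) i n) ^ 2
      ≤ (1 + 3 / (1 - α)) ^ 2 + (4 / ht α) ^ 2 := by
  refine abs_mix_bound h (fun j => sh (off N s j) (win L (wave N a b)) n) fun j => ?_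
  simp only [sh, win]
  split_ifs
  · exact wave_abs N hab _
  · simp
  · simp

lemma flat_interior (h : |α| < 1) {N s L n : ℕ} (hN : 0 < N) (hs : s ≤ N) (hn : 2 * N ≤ n)
    (hnL : n < L) {a b : ℝ} (hab : |a| + |b| ≤ 1) :
    cu (fun i => row α N s (win L (wave N a b)) i n) ^ 2
      + cw α (fun i => row α N s (win L (wave N a b)) i n) ^ 2
      ≤ (Real.cos (Real.pi / N * s) - α) ^ 2 * ((1 / (1 - α)) ^ 2 + (1 / ht α) ^ 2) := by
  obtain ⟨h1, h2⟩ := abs_lt.1 h
  have hα : 1 - α ≠ 0 := by linarith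
  have hh := (ht_pos h).ne'
  set δ := Real.cos (Real.pi / N * s) - α
  set c := wave N a b n
  have hT := fun j => interior (L := L) hN hs hn hnL a b j
  have eu : cu (fun i => row α N s (win L (wave N a b)) i n) = -c * δ * (1 / (1 - α)) := by
    simp only [cu, row, mix, c, δ, show wave N a b = fun m : ℕ => a * Real.cos (Real.pi / N * m) + b * Real.sin (Real.pi / N * m)
      from rfl, hT]
    simp
    field_simp
    ring
  have ew : cw α (fun i => row α N s (win L (wave N a b)) i n) = c * δ * (1 / ht α) := by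
    simp only [cw, row, mix, c, δ, show wave N a b = fun m : ℕ => a * Real.cos (Real.pi / N * m) + b * Real.sin (Real.pi / N * m)
      from rfl, hT]
    simp
    field_simp
    ring
  rw [eu, ew]
  have hc : c ^ 2 ≤ 1 := by
    have h3 : |c| ≤ 1 := wave_abs N hab n
    nlinarith [sq_abs c, abs_nonneg c]
  calc (-c * δ * (1 / (1 - α))) ^ 2 + (c * δ * (1 / ht α)) ^ 2
      = c ^ 2 * (δ ^ 2 * ((1 / (1 - α)) ^ 2 + (1 / ht α) ^ 2)) := by ring
    _ ≤ _ := mul_le_of_le_one_left (by positivity) hc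

lemma skew_interior (h : |α| < 1) {N s L n : ℕ} (hN : 0 < N) (hs : s ≤ N) (hn : 4 * N ≤ n)
    (hnL : n < L) :
    Real.sin (Real.pi / N * s) ^ 2 ≤
      cu (fun i => sh (off N s i) (row α N s (win L (wave N 1 0)) i) n) ^ 2
      + cu (fun i => sh (off N s i) (row α N s (win L (wave N 0 1)) i) n) ^ 2 := by
  obtain ⟨h1, h2⟩ := abs_lt.1 h
  have hα : 1 - α ≠ 0 := by linarith
  set x := Real.pi / N * (n : ℝ)
  set C := Real.cos (Real.pi / N * s) with hC
  set S := Real.sin (Real.pi / N * s)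
  set P := 1 + C - (C - α) / (1 - α)
  have hφ : Real.pi / N * N = Real.pi := div_mul_cancel₀ _ (by exact_mod_cast hN.ne')
  have key : ∀ a b : ℝ, cu (fun i => sh (off N s i) (row α N s (win L (wave N a b)) i) n)
      = -((a * Real.cos x + b * Real.sin x) * P + (a * Real.sin x - b * Real.cos x) * S) := by
    intro a b
    have hT := fun j => interior (L := L) hN hs (show 2 * N ≤ n by omega) hnL a b j
    have hT' := fun j => interior (L := L) hN hs (show 2 * N ≤ n - N by omega)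
      (show n - N < L by omega) a b j
    simp only [cu, sh, off, Matrix.cons_val_zero, Matrix.cons_val_one, Nat.zero_le, if_true,
      Nat.sub_zero, show N ≤ n by omega]
    simp only [row, mix, P, C, S, x, show wave N a b = fun m : ℕ => a * Real.cos (Real.pi / N * m) + b * Real.sin (Real.pi / N * m)
      from rfl, hT, hT']
    simp [Nat.cast_sub (show N ≤ n by omega), mul_sub, hφ, Real.cos_sub_pi, Real.sin_sub_pi]
    field_simp
    ring
  rw [key, key]
  have := Real.cos_sq_add_sin_sq x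
  nlinarith [sq_nonneg P]

lemma skew_sum (h : |α| < 1) {N s : ℕ} (hN : 0 < N) (hs : s ≤ N) {e : ℝ}
    (he : e ≤ Real.sin (Real.pi / N * s) ^ 2) :
    (N : ℝ) ^ 2 * e ≤
      sU (skew α N s (4 * N + N ^ 2 + 4 * N) (win (4 * N + N ^ 2) (wave N 1 0)))
      + sU (skew α N s (4 * N + N ^ 2 + 4 * N) (win (4 * N + N ^ 2) (wave N 0 1))) := by
  set L := 4 * N + N ^ 2
  set M := L + 4 * N
  have hsub : Ico (4 * N) L ⊆ range M := fun x hx => by
    rw [mem_Ico] at hx; rw [mem_range]; omega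
  have hcard : (Ico (4 * N) L).card = N ^ 2 := by rw [Nat.card_Ico]; omega
  rw [skew, skew, sU_range, sU_range, ← sum_add_distrib]
  refine le_trans ?_ (sum_le_sum_of_subset_of_nonneg hsub fun _ _ _ => by positivity)
  refine le_trans ?_ (card_nsmul_le_sum _ _ e fun n hn => ?_)
  · rw [hcard, nsmul_eq_mul]; push_cast; exact le_rfl
  · rw [mem_Ico] at hn
    exact he.trans (skew_interior h hN hs hn.1 hn.2)

lemma flat_sum (h : |α| < 1) {N s : ℕ} (hN : 0 < N) (hs : s ≤ N) {d a b : ℝ}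
    (hd : (Real.cos (Real.pi / N * s) - α) ^ 2 ≤ d) (hab : |a| + |b| ≤ 1) :
    sU (flat α N s (4 * N + N ^ 2 + 4 * N) (win (4 * N + N ^ 2) (wave N a b)))
      + sW α (flat α N s (4 * N + N ^ 2 + 4 * N) (win (4 * N + N ^ 2) (wave N a b)))
      ≤ (N : ℝ) ^ 2 * (d * ((1 / (1 - α)) ^ 2 + (1 / ht α) ^ 2))
        + 8 * N * ((1 + 3 / (1 - α)) ^ 2 + (4 / ht α) ^ 2) := by
  set L := 4 * N + N ^ 2
  set M := L + 4 * N
  have hsub : Ico (4 * N) L ⊆ range M := fun x hx => by
    rw [mem_Ico] at hx; rw [mem_range]; omega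
  have hcard : (Ico (4 * N) L).card = N ^ 2 := by rw [Nat.card_Ico]; omega
  rw [flat, sU_range, sW_range, ← sum_add_distrib, ← sum_sdiff hsub, add_comm]
  refine add_le_add
    ((sum_le_card_nsmul _ _ (d * ((1 / (1 - α)) ^ 2 + (1 / ht α) ^ 2)) fun n hn => ?_).trans ?_)
    ((sum_le_card_nsmul _ _ ((1 + 3 / (1 - α)) ^ 2 + (4 / ht α) ^ 2)
      fun n _ => flat_bound h N s L hab n).trans ?_)
  · rw [mem_Ico] at hn
    exact (flat_interior h hN hs (by omega) hn.2 hab).trans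
      (mul_le_mul_of_nonneg_right hd (by positivity))
  · rw [hcard, nsmul_eq_mul]; push_cast; exact le_rfl
  · rw [card_sdiff_of_subset hsub, hcard, card_range, nsmul_eq_mul]
    refine mul_le_mul_of_nonneg_right ?_ (by positivity)
    rw [show M - N ^ 2 = 8 * N by omega]; push_cast; exact le_rfl

/-- Two alignments of the same words of very different sizes. -/
lemma exists_alignments (h : |α| < 1) {K : ℝ} (hK : 0 ≤ K) :
    ∃ A B : Cols, (∀ v ∈ A, Rel α v) ∧ (∀ v ∈ B, Rel α v) ∧ (∀ i, word A i = word B i) ∧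
      K * (sU B + sW α B) < sU A := by
  obtain ⟨h1, h2⟩ := abs_lt.1 h
  have hb := ht_pos h
  have hb2 := ht_sq h
  set c1 := (1 / (1 - α)) ^ 2 + (1 / ht α) ^ 2
  set Bd := (1 + 3 / (1 - α)) ^ 2 + (4 / ht α) ^ 2
  have hc1 : 0 ≤ c1 := by positivity
  have hBd : 0 ≤ Bd := by positivity
  set C' := 2 * Real.pi ^ 2 * c1 + 16 * Bd
  have hC' : 0 ≤ C' := by positivity
  obtain ⟨N, hN⟩ := exists_nat_gt (max (max 1 (4 * Real.pi / ht α ^ 2)) (2 * K * C' / ht α ^ 2))
  simp only [max_lt_iff] at hN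
  obtain ⟨⟨hN1, hN2⟩, hN3⟩ := hN
  rw [div_lt_iff₀ (by positivity)] at hN2 hN3
  have hNpos : 0 < N := by
    have : (0 : ℝ) < N := by linarith
    exact_mod_cast this
  have hNr : (0 : ℝ) < N := by exact_mod_cast hNpos
  set θ := Real.arccos α
  set φ := Real.pi / N
  have hφ : 0 < φ := div_pos Real.pi_pos hNr
  set s := ⌊θ / φ⌋₊
  have hθ : 0 ≤ θ := Real.arccos_nonneg α
  have hs : s ≤ N := by
    refine Nat.floor_le_of_le ?_
    rw [div_le_iff₀ hφ, show (N : ℝ) * φ = Real.pi by simp only [φ]; field_simp]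
    exact Real.arccos_le_pi α
  have hs1 : (s : ℝ) * φ ≤ θ := (le_div_iff₀ hφ).1 (Nat.floor_le (by positivity))
  have hs2 : θ < ((s : ℝ) + 1) * φ := (div_lt_iff₀ hφ).1 (Nat.lt_floor_add_one _)
  set δ := Real.cos (φ * s) - α with hδdef
  have hδ : |δ| ≤ φ := by
    rw [hδdef]
    conv_lhs => rw [← Real.cos_arccos h1.le h2.le]
    refine (Real.abs_cos_sub_cos_le _ _).trans ?_
    rw [abs_le]
    constructor <;> nlinarith
  have hδ2 : δ ^ 2 ≤ φ ^ 2 := by nlinarith [sq_abs δ, abs_nonneg δ]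
  have hS : ht α ^ 2 / 2 ≤ Real.sin (φ * s) ^ 2 := by
    rw [Real.sin_sq, hb2]
    have h4 : 4 * φ < 1 - α ^ 2 := by
      rw [show φ = Real.pi / N from rfl, ← mul_div_assoc, div_lt_iff₀ hNr]
      rw [hb2] at hN2; linarith
    have := Real.cos_le_one (φ * s)
    have := Real.neg_one_le_cos (φ * s)
    rw [abs_le] at hδ
    nlinarith
  set L := 4 * N + N ^ 2 with hL
  set M := L + 4 * N with hM
  set Bc := flat α N s M (win L (wave N 1 0))
  set Bs := flat α N s M (win L (wave N 0 1))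
  set Ac := skew α N s M (win L (wave N 1 0))
  set As := skew α N s M (win L (wave N 0 1))
  have hα1 : α ≠ 1 := h2.ne
  refine ⟨Ac ++ As, Bc ++ Bs, ?_, ?_, fun i => ?_, ?_⟩
  · intro v hv
    rcases List.mem_append.1 hv with hv | hv <;> exact rel_skew hα1 _ _ _ _ v hv
  · intro v hv
    rcases List.mem_append.1 hv with hv | hv <;> exact rel_flat hα1 _ _ _ _ v hv
  · simp only [word_append, Ac, As, Bc, Bs, M, word_skew_eq hs]
  rw [(sums_append (α := α) Ac As).1, (sums_append (α := α) Bc Bs).1,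
    (sums_append (α := α) Bc Bs).2.1]
  have hA : (N : ℝ) ^ 2 * (ht α ^ 2 / 2) ≤ sU Ac + sU As := skew_sum h hNpos hs hS
  have hB1 : sU Bc + sW α Bc ≤ (N : ℝ) ^ 2 * (φ ^ 2 * c1) + 8 * N * Bd :=
    flat_sum h hNpos hs hδ2 (by norm_num)
  have hB2 : sU Bs + sW α Bs ≤ (N : ℝ) ^ 2 * (φ ^ 2 * c1) + 8 * N * Bd :=
    flat_sum h hNpos hs hδ2 (by norm_num)
  have he : (N : ℝ) ^ 2 * (φ ^ 2 * c1) = Real.pi ^ 2 * c1 := by
    simp only [φ]; field_simp
  rw [he] at hB1 hB2
  have hN1' : (0 : ℝ) ≤ N - 1 := by linarith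
  have hpc : 0 ≤ Real.pi ^ 2 * c1 := mul_nonneg (sq_nonneg _) hc1
  have h5 : sU Bc + sU Bs + (sW α Bc + sW α Bs) ≤ N * C' := by
    have h6 : 0 ≤ ((N : ℝ) - 1) * (Real.pi ^ 2 * c1) := mul_nonneg hN1' hpc
    simp only [C']
    linarith
  have h7 : N * (K * C') < N * (N * (ht α ^ 2 / 2)) :=
    mul_lt_mul_of_pos_left (by linarith) hNr
  have h8 := mul_le_mul_of_nonneg_left h5 hK
  linarith

end Vale.Agent.P058.Kite
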