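import Vale.Agent.P058.Kite.Defs

/-!
The cyclic kite with transcendental `α` is not subtransitive.

In a transitive set the affine relation of the kite gives a linear system with coefficients affine
in `α`. At `α = 3` the relation is a convex combination, so averaging squares over the group forces
its solutions to identify the first two points. The rank cannot drop at a transcendental parameter.
-/

namespace Vale.Agent.P058.Kite

open Finset
open scoped RealInnerProductSpace

/-- The coefficients of the affine relation. -/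
def coef (a : ℝ) : Fin 4 → ℝ := ![-(1 + a), -(1 - a), 1, 1]

lemma sum_coef (a : ℝ) : ∑ i, coef a i = 0 := by
  simp [coef, Fin.sum_univ_four]
  ring

lemma copy_rel {α : ℝ} {n : ℕ} {f : Fin 4 → Sp n}
    (hd : ∀ i j, dist (f i) (f j) = dist (pts α i) (pts α j)) : ∑ i, coef α i • f i = 0 := by
  have hp : ∑ i, coef α i • pts α i = 0 := by
    ext k
    fin_cases k <;> simp [coef, pts, Fin.sum_univ_four]
    ring
  have h := inner_sum_smul_sum_smul_of_sum_eq_zero f (sum_coef α) f (sum_coef α)
  have h' := inner_sum_smul_sum_smul_of_sum_eq_zero (pts α) (sum_coef α) (pts α) (sum_coef α)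
  rw [hp, inner_zero_left] at h'
  simp only [← dist_eq_norm, hd] at h
  simp only [← dist_eq_norm] at h'
  rw [← h', inner_self_eq_zero] at h
  exact h

lemma isometry_rel {n : ℕ} (g : Sp n ≃ᵢ Sp n) {α : ℝ} {f : Fin 4 → Sp n}
    (hf : ∑ i, coef α i • f i = 0) : ∑ i, coef α i • g (f i) = 0 := by
  have e : ∀ x, g x = g.toRealLinearIsometryEquiv x + g 0 := fun x => by
    simp [IsometryEquiv.toRealLinearIsometryEquiv_apply]
  simp only [e (f _), smul_add, sum_add_distrib, ← sum_smul, sum_coef, zero_smul, add_zero,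
    ← map_smul, ← map_sum, hf, map_zero]

variable {n : ℕ}

/-- The permutations of a set induced by isometries. -/
def symGroup (X : Finset (Sp n)) : Subgroup (Equiv.Perm X) where
  carrier := {σ | ∃ g : Sp n ≃ᵢ Sp n, ∀ x : X, g x = σ x}
  one_mem' := ⟨IsometryEquiv.refl _, fun _ => rfl⟩
  mul_mem' := by
    rintro σ τ ⟨g, hg⟩ ⟨g', hg'⟩
    exact ⟨g'.trans g, fun x => by simp [hg', hg]⟩
  inv_mem' := by
    rintro σ ⟨g, hg⟩
    refine ⟨g.symm, fun x => ?_⟩
    rw [IsometryEquiv.symm_apply_eq, hg]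
    simp

/-- A finite set whose affine relation has a transcendental parameter identifies two points. -/
theorem first_eq_second {α : ℝ} (hα : Transcendental ℚ α) {X : Finset (Sp n)}
    (htr : ∀ x ∈ X, ∀ y ∈ X, ∃ g : Sp n ≃ᵢ Sp n, g '' (X : Set (Sp n)) = X ∧ g x = y)
    {f : Fin 4 → Sp n} (hf : ∀ i, f i ∈ X) (hrel : ∑ i, coef α i • f i = 0) : f 1 = f 0 := by
  classical
  set G := symGroup X
  let p : Fin 4 → X := fun i => ⟨f i, hf i⟩
  let P : G → Fin 4 → X := fun σ i => (σ : Equiv.Perm X) (p i)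
  have hτ : ∀ i, ∃ τ : G, (τ : Equiv.Perm X) (p 0) = p i := by
    intro i
    obtain ⟨g, hg, hgx⟩ := htr _ (hf 0) _ (hf i)
    have hmem : ∀ x : Sp n, x ∈ X ↔ g x ∈ X := fun x => by
      rw [← Finset.mem_coe, ← Finset.mem_coe]
      constructor
      · intro hx; rw [← hg]; exact ⟨x, hx, rfl⟩
      · intro hx
        rw [← hg] at hx
        obtain ⟨y, hy, hyx⟩ := hx
        exact g.injective hyx ▸ hy
    exact ⟨⟨g.toEquiv.subtypeEquiv hmem,
      (⟨g, fun _ => rfl⟩ : ∃ g' : Sp n ≃ᵢ Sp n, ∀ x : X, g' x = g.toEquiv.subtypeEquiv hmem x)⟩,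
      Subtype.ext hgx⟩
  have havg : ∀ (Φ : X → ℝ) i, ∑ σ : G, Φ (P σ i) = ∑ σ : G, Φ (P σ 0) := by
    intro Φ i
    obtain ⟨τ, hτ⟩ := hτ i
    refine Eq.trans ?_ (Equiv.sum_comp (Equiv.mulRight τ) fun σ => Φ (P σ 0))
    refine sum_congr rfl fun σ _ => ?_
    simp [P, hτ]
  have hconv : ∀ φ : X → ℝ, (∀ σ, ∑ i, coef 3 i * φ (P σ i) = 0) →
      ∀ σ, φ (P σ 1) = φ (P σ 0) := by
    intro φ h σ
    have hz : ∑ σ : G, ∑ i, coef 3 i * (φ (P σ i) - φ (P σ 0)) ^ 2 = 0 := by
      have e : ∀ σ : G, ∑ i, coef 3 i * (φ (P σ i) - φ (P σ 0)) ^ 2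
          = ∑ i, coef 3 i * φ (P σ i) ^ 2 := by
        intro σ
        have h1 := h σ
        simp only [coef, Fin.sum_univ_four, Matrix.cons_val_zero, Matrix.cons_val_one,
          Matrix.cons_val] at h1 ⊢
        linear_combination -2 * φ (P σ 0) * h1
      rw [sum_congr rfl fun σ _ => e σ, sum_comm]
      simp only [← mul_sum, havg (fun x => φ x ^ 2), ← sum_mul, sum_coef, zero_mul]
    have hnn : ∀ σ ∈ (univ : Finset G), 0 ≤ ∑ i, coef 3 i * (φ (P σ i) - φ (P σ 0)) ^ 2 := by
      intro σ _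
      simp only [coef, Fin.sum_univ_four, Matrix.cons_val_zero, Matrix.cons_val_one,
        Matrix.cons_val]
      nlinarith [sq_nonneg (φ (P σ 1) - φ (P σ 0)), sq_nonneg (φ (P σ 2) - φ (P σ 0)),
        sq_nonneg (φ (P σ 3) - φ (P σ 0))]
    have := (sum_eq_zero_iff_of_nonneg hnn).1 hz σ (mem_univ _)
    simp only [coef, Fin.sum_univ_four, Matrix.cons_val_zero, Matrix.cons_val_one,
      Matrix.cons_val] at this
    nlinarith [sq_nonneg (φ (P σ 1) - φ (P σ 0)), sq_nonneg (φ (P σ 2) - φ (P σ 0)),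
        sq_nonneg (φ (P σ 3) - φ (P σ 0))]
  let row : ℝ → G → X → ℝ := fun a σ => ∑ i, coef a i • Pi.single (P σ i) 1
  let D : G → X → ℝ := fun σ => Pi.single (P σ 1) 1 - Pi.single (P σ 0) 1
  set V := Submodule.span ℝ (Set.range (row 3))
  have hpair : ∀ (L : (X → ℝ) →ₗ[ℝ] ℝ) a σ,
      L (row a σ) = ∑ i, coef a i * L (Pi.single (P σ i) 1) := by
    intro L a σ; simp [row, map_sum]
  have hD : ∀ σ, D σ ∈ V := by
    intro σ
    by_contra hcon
    obtain ⟨L, hL, hLV⟩ := Submodule.exists_dual_map_eq_bot_of_notMem hcon inferInstance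
    refine hL ?_
    have h0 : ∀ σ, L (row 3 σ) = 0 := fun σ => by
      have : L (row 3 σ) ∈ V.map L := ⟨_, Submodule.subset_span ⟨σ, rfl⟩, rfl⟩
      rw [hLV] at this
      exact (Submodule.mem_bot ℝ).1 this
    have := hconv (fun x => L (Pi.single x 1)) (fun σ => (hpair L 3 σ) ▸ h0 σ) σ
    simp [D, this]
  have hrow : ∀ a σ, row a σ ∈ V := by
    intro a σ
    have e : row a σ = row 3 σ + (a - 3) • D σ := by
      simp only [row, D, Fin.sum_univ_four, coef, Matrix.cons_val_zero, Matrix.cons_val_one,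
        Matrix.cons_val]
      module
    rw [e]
    exact add_mem (Submodule.subset_span ⟨σ, rfl⟩) (Submodule.smul_mem _ _ (hD σ))
  obtain ⟨T, hTsub, hTspan, hT⟩ := exists_linearIndependent ℝ (Set.range (row 3))
  choose S hS using fun j : T => hTsub j.2
  have hfin : Fintype T := ((Set.finite_range (row 3)).subset hTsub).fintype
  let M : ℝ → Matrix T T ℝ := fun a j k => ∑ x, row a (S j) x * row a (S k) x
  have hdet : ∀ a, (M a).det ≠ 0 ↔ LinearIndependent ℝ fun j => row a (S j) := by
    intro a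
    rw [Fintype.linearIndependent_iff, ne_eq, ← Matrix.exists_mulVec_eq_zero_iff]
    have key : ∀ (v : T → ℝ), (M a).mulVec v = fun j => ∑ x, row a (S j) x *
        (∑ k, v k • row a (S k)) x := by
      intro v
      funext j
      simp only [Matrix.mulVec, dotProduct, M, Finset.sum_apply, Pi.smul_apply, smul_eq_mul,
        mul_sum, sum_mul]
      rw [sum_comm]
      exact sum_congr rfl fun x _ => sum_congr rfl fun k _ => by ring
    constructor
    · intro h v hv j
      by_contra hj
      refine h ⟨v, fun hc => hj (congrFun hc j), ?_⟩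
      rw [key, hv]
      simp [Pi.zero_def]
    · rintro h ⟨v, hv, hMv⟩
      refine hv (funext fun j => h v ?_ j)
      rw [key] at hMv
      have h2 : ∑ x, (∑ k, v k • row a (S k)) x ^ 2 = 0 := by
        have h3 : ∑ j, v j * ∑ x, row a (S j) x * (∑ k, v k • row a (S k)) x = 0 :=
          sum_eq_zero fun j _ => by rw [congrFun hMv j]; simp
        rw [← h3]
        simp only [mul_sum]
        rw [sum_comm]
        refine sum_congr rfl fun x _ => ?_
        rw [sq]
        conv_lhs => arg 1; rw [Finset.sum_apply]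
        rw [sum_mul]
        exact sum_congr rfl fun j _ => by simp; ring
      funext x
      simpa using (sum_eq_zero_iff_of_nonneg fun x _ => sq_nonneg _).1 h2 x (mem_univ _)
  have h3 : (M 3).det ≠ 0 := (hdet 3).2 (by simp only [hS]; exact hT)
  let rp : G → X → Polynomial ℚ := fun σ x => ∑ i,
    (![-(1 + Polynomial.X), -(1 - Polynomial.X), 1, 1] : Fin 4 → Polynomial ℚ) i
      * (if x = P σ i then 1 else 0)
  let Q : Matrix T T (Polynomial ℚ) := fun j k => ∑ x, rp (S j) x * rp (S k) x
  have hQ : ∀ a : ℝ, Polynomial.aeval a Q.det = (M a).det := by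
    intro a
    rw [AlgHom.map_det]
    congr 1
    ext j k
    change Polynomial.aeval a (∑ x, rp (S j) x * rp (S k) x) = ∑ x, row a (S j) x * row a (S k) x
    rw [map_sum]
    refine sum_congr rfl fun x _ => ?_
    simp [rp, row, coef, Fin.sum_univ_four, Pi.single_apply, apply_ite (Polynomial.aeval a)]
  have hQ0 : Q.det ≠ 0 := fun hc => h3 (by rw [← hQ 3, hc, map_zero])
  have hα0 : (M α).det ≠ 0 := by
    rw [← hQ α]
    exact fun hc => hα ⟨Q.det, hQ0, hc⟩
  have hind := (hdet α).1 hα0
  set Vα := Submodule.span ℝ (Set.range fun j => row α (S j))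
  have hVα : Vα = V := by
    refine Submodule.eq_of_le_of_finrank_le (Submodule.span_le.2 ?_) (le_of_eq ?_)
    · rintro _ ⟨j, rfl⟩; exact hrow α _
    · rw [finrank_span_eq_card hind]
      show Module.finrank ℝ (Submodule.span ℝ (Set.range (row 3))) = _
      rw [← hTspan, finrank_span_set_eq_card hT, Set.toFinset_card]
  ext k
  let L : (X → ℝ) →ₗ[ℝ] ℝ := ∑ x : X, ((x : Sp n) k) • LinearMap.proj x
  have hLs : ∀ x, L (Pi.single x 1) = (x : Sp n) k := fun x => by
    simp [L, Pi.single_apply]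
  have hLrow : ∀ σ, L (row α σ) = 0 := by
    intro σ
    obtain ⟨g, hg⟩ := σ.2
    simp only [hpair, hLs]
    have e := congrArg (fun v : Sp n => v k) (isometry_rel g hrel)
    simpa [P, p, ← hg] using e
  have hker : Vα ≤ LinearMap.ker L := by
    rw [Submodule.span_le]
    rintro _ ⟨j, rfl⟩
    exact hLrow _
  have hfinal := hker (hVα ▸ hD 1)
  simpa [D, hLs, P, p, sub_eq_zero] using hfinal

/-- The cyclic kite with transcendental parameter is not subtransitive. -/
theorem not_subtransitive {α : ℝ} (hα : Transcendental ℚ α) : ¬ IsSubtransitive (pts α) := by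
  rintro ⟨n, X, htr, f, hf, hd⟩
  have h10 := first_eq_second hα htr hf (copy_rel hd)
  have h := hd 1 0
  rw [h10, dist_self, EuclideanSpace.dist_eq] at h
  norm_num [pts, Fin.sum_univ_two] at h

/-- There are transcendental numbers of absolute value less than one. -/
theorem exists_alpha : ∃ α : ℝ, Transcendental ℚ α ∧ |α| < 1 := by
  by_contra! hcon
  have hsub : Set.Ioo (-1 : ℝ) 1 ⊆ {x : ℝ | IsAlgebraic ℚ x} := fun x hx => by
    by_contra hx'
    exact (hcon x hx').not_gt (abs_lt.2 ⟨hx.1, hx.2⟩)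
  have := Cardinal.Real.Ioo_countable_iff.1 ((Algebraic.countable ℚ ℝ).mono hsub)
  norm_num at this

end Vale.Agent.P058.Kite
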