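import Vale.Agent.P058.Kite.Estimate

/-! The cyclic kite is Ramsey. -/

namespace Vale.Agent.P058.Kite

open Finset

lemma word_scale {m : ℕ} (c : ℝ) (cols : List (Fin m → ℝ)) (i : Fin m) :
    word (cols.map fun v j => c * v j) i
      = ((word cols i).map (c * ·)).filter (fun a => decide (a ≠ 0)) := by
  induction cols with
  | nil => simp [word]
  | cons v cols ih =>
    by_cases hv : v i = 0
    · simpa [word, hv] using ih
    · by_cases hc : c * v i = 0
      · simpa [word, hv, hc] using ih
      · simpa [word, hv, hc] using ih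

lemma sqd_scale {m : ℕ} {w : ℝ} (hw : 0 ≤ w) (cols : List (Fin m → ℝ)) (i j : Fin m) :
    sqd (cols.map fun v k => √w * v k) i j = w * sqd cols i j := by
  simp only [sqd, List.map_map, ← List.sum_map_mul_left]
  refine congrArg List.sum (List.map_congr_left fun v _ => ?_)
  simp [← mul_sub, mul_pow, Real.sq_sqrt hw]

/-- The cyclic kite is Ramsey. -/
theorem ramsey {α : ℝ} (h : |α| < 1) : IsRamsey (pts α) := by
  refine ramsey_of_words _ (fun _ _ => dist_nonneg) fun k => ?_
  set K : ℝ := ((k : ℝ) + 1) ^ 2 + 1 with hK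
  obtain ⟨A₀, B₀, hA₀, hB₀, hw₀, hlt⟩ := exists_alignments h (K := K) (by positivity)
  obtain ⟨A, B, S, hw, hS, hA, hB⟩ := exists_exact_pair h hA₀ hB₀ hw₀
  set ρ := 2 * (sU B₀ + sW α B₀) with hρdef
  have hρ : 0 ≤ ρ := mul_nonneg two_pos.le (add_nonneg (sum_sq_nonneg _ _) (sum_sq_nonneg _ _))
  have hKρ : ((k : ℝ) + 1) ^ 2 * ρ < S - ρ := by
    rw [hK] at hlt
    linarith
  have hgap : 0 < S - ρ := lt_of_le_of_lt (by positivity) hKρ
  set T := ((k : ℝ) + 1) / (S - ρ) with hT
  have hρT : ρ * T ≤ 1 / ((k : ℝ) + 1) := by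
    rw [hT, ← mul_div_assoc, div_le_div_iff₀ hgap (by positivity)]
    linarith
  let wt : ℕ → ℝ := fun b => if b < k + 1 then (1 / ((b : ℝ) + 1) - ρ * T) / (S - ρ)
    else T - ∑ b ∈ range (k + 1), (1 / ((b : ℝ) + 1) - ρ * T) / (S - ρ)
  have hwt : ∀ b, 0 ≤ wt b := by
    intro b
    simp only [wt]
    split_ifs with hb
    · refine div_nonneg (sub_nonneg.2 (hρT.trans ?_)) hgap.le
      gcongr
      omega
    · refine sub_nonneg.2 ((sum_le_card_nsmul _ _ (1 / (S - ρ)) fun b _ => ?_).trans_eq ?_)
      · gcongr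
        refine le_trans (sub_le_self _ (mul_nonneg hρ (div_nonneg (by positivity) hgap.le))) ?_
        rw [div_le_one (by positivity)]
        exact le_add_of_nonneg_left (Nat.cast_nonneg b)
      · rw [card_range, nsmul_eq_mul, hT]; push_cast; ring
  have hsum : ∑ b ∈ range (k + 2), wt b = T := by
    rw [sum_range_succ, sum_congr rfl fun b hb => if_pos (mem_range.1 hb)]
    simp [wt]
  let W : Fin 4 → List ℝ := fun i => (List.range (k + 2)).flatMap fun b =>
    ((word B i).map (√(wt b) * ·)).filter (fun a => decide (a ≠ 0))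
  refine ⟨W, fun t ht1 htk => ⟨(List.range (k + 2)).flatMap fun b =>
    (if b + 1 = t then A else B).map fun v j => √(wt b) * v j, fun i => ?_, fun i j => ?_⟩⟩
  · simp only [W, word_flatMap, word_scale]
    congr 1
    funext b
    split_ifs
    · rw [hw i]
    · rfl
  · rw [sqd_flatMap]
    simp only [sqd_scale (hwt _)]
    change (t : ℝ) * ∑ b ∈ range (k + 2), wt b * sqd (if b + 1 = t then A else B) i j = _
    have e : ∀ b, wt b * sqd (if b + 1 = t then A else B) i j
        = (ρ * wt b + if b = t - 1 then (S - ρ) * wt b else 0) * dist (pts α i) (pts α j) ^ 2 := by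
      intro b
      by_cases hb : b + 1 = t
      · rw [if_pos hb, if_pos (by omega), hA]; ring
      · rw [if_neg hb, if_neg (by omega), hB]; ring
    rw [sum_congr rfl fun b _ => e b, ← sum_mul, sum_add_distrib, ← mul_sum, hsum, sum_ite_eq',
      if_pos (mem_range.2 (by omega))]
    have hv : (S - ρ) * wt (t - 1) = 1 / (t : ℝ) - ρ * T := by
      simp only [wt, if_pos (show t - 1 < k + 1 by omega)]
      rw [Nat.cast_sub ht1]; push_cast
      rw [sub_add_cancel]
      field_simp
    rw [hv]
    have : (t : ℝ) ≠ 0 := by positivity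
    field_simp
    ring

end Vale.Agent.P058.Kite
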