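import Vale.Agent.P058.Kite.Defs

/-!
A reduction of the Ramsey property to words.

A colouring of all finitely supported sequences has a limit colour for every word of nonzero
entries. Together with the Hales-Jewett theorem this shows: a configuration is Ramsey as soon as,
for every `k`, there are words, one for each point, which for every `t` up to `k` can be padded by
zeros to a copy of the configuration scaled by `1 / √t`.
-/

namespace Vale.Agent.P058.Kite

open Filter Finset

/-- The nonzero entries of a row. -/
noncomputable def word {m : ℕ} (cols : List (Fin m → ℝ)) (i : Fin m) : List ℝ :=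
  (cols.map fun v => v i).filter (fun a => decide (a ≠ 0))

/-- The squared distance of two rows. -/
def sqd {m : ℕ} (cols : List (Fin m → ℝ)) (i j : Fin m) : ℝ :=
  (cols.map fun v => (v i - v j) ^ 2).sum

variable {κ : Type*}

lemma exists_eventually_eq [Finite κ] (U : Ultrafilter ℕ) (f : ℕ → κ) :
    ∃ k, ∀ᶠ n in (U : Filter ℕ), f n = k := by
  by_contra! hcon
  have h : ∀ᶠ n in (U : Filter ℕ), ∀ k, f n ≠ k :=
    eventually_all.2 hcon
  obtain ⟨n, hn⟩ := h.exists
  exact hn (f n) rfl

/-- The limit along a free ultrafilter of a function with finitely many values. -/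
noncomputable def ulim [Finite κ] (f : ℕ → κ) : κ :=
  (exists_eventually_eq (hyperfilter ℕ) f).choose

lemma ulim_spec [Finite κ] (f : ℕ → κ) :
    ∀ᶠ n in (hyperfilter ℕ : Filter ℕ), f n = ulim f :=
  (exists_eventually_eq (hyperfilter ℕ) f).choose_spec

lemma eventually_ge_hyper (b : ℕ) : ∀ᶠ n in (hyperfilter ℕ : Filter ℕ), b ≤ n :=
  (eventually_ge_atTop b).filter_mono (Nat.cofinite_eq_atTop ▸ hyperfilter_le_cofinite)

/-- The limit colour of a word written after a given sequence. -/
noncomputable def limCol [Finite κ] (col : (ℕ →₀ ℝ) → κ) : List ℝ → (ℕ →₀ ℝ) → κ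
  | [], x => col x
  | a :: l, x => ulim fun n => limCol col l (x + Finsupp.single n a)

/-- Columns can be placed so that every row receives the limit colour of its word. -/
lemma exists_placement [Finite κ] (col : (ℕ →₀ ℝ) → κ) {m : ℕ} :
    ∀ (cols : List (Fin m → ℝ)) (base : Fin m → ℕ →₀ ℝ) (b : ℕ),
      ∃ y : Fin m → ℕ →₀ ℝ, (∀ i, col (base i + y i) = limCol col (word cols i) (base i))
        ∧ (∀ i, ∀ n < b, y i n = 0)
        ∧ ∀ i j, ∀ᶠ D in atTop, ∑ n ∈ range D, (y i n - y j n) ^ 2 = sqd cols i j := by
  intro cols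
  induction cols with
  | nil => exact fun base b => ⟨fun _ => 0, fun i => by simp [word, limCol], fun _ _ _ => rfl,
      fun i j => by simp [sqd]⟩
  | cons v cols ih =>
    intro base b
    have hev : ∀ᶠ n in (hyperfilter ℕ : Filter ℕ), b ≤ n ∧ ∀ i,
        limCol col (word cols i) (base i + Finsupp.single n (v i))
          = limCol col (word (v :: cols) i) (base i) := by
      refine (eventually_ge_hyper b).and (eventually_all.2 fun i => ?_)
      by_cases hv : v i = 0
      · have hw : word (v :: cols) i = word cols i := by simp [word, hv]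
        simp [hw, hv]
      · have hw : word (v :: cols) i = v i :: word cols i := by simp [word, hv]
        simp only [hw, limCol]
        exact ulim_spec _
    obtain ⟨n, hbn, hn⟩ := hev.exists
    obtain ⟨y, hy, hy0, hyd⟩ := ih (fun i => base i + Finsupp.single n (v i)) (n + 1)
    refine ⟨fun i => Finsupp.single n (v i) + y i, fun i => ?_, fun i k hk => ?_, fun i j => ?_⟩
    · rw [← add_assoc, hy i, hn i]
    · rw [Finsupp.add_apply, hy0 i k (by omega), Finsupp.single_eq_of_ne (by omega), add_zero]
    · filter_upwards [hyd i j, eventually_gt_atTop n] with D hD hnD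
      have hsplit : ∀ k, ((Finsupp.single n (v i) + y i : ℕ →₀ ℝ) k
          - (Finsupp.single n (v j) + y j : ℕ →₀ ℝ) k) ^ 2
          = (if k = n then (v i - v j) ^ 2 else 0) + (y i k - y j k) ^ 2 := by
        intro k
        by_cases hk : k = n
        · subst hk
          simp [hy0 i k (by omega), hy0 j k (by omega)]
        · simp [Finsupp.single_eq_of_ne hk, hk]
      rw [sum_congr rfl fun k _ => hsplit k, sum_add_distrib, hD, sum_ite_eq',
        if_pos (mem_range.2 hnD)]
      simp [sqd]

lemma word_flatMap {m : ℕ} {J : Type*} (l : List J) (F : J → List (Fin m → ℝ)) (i : Fin m) :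
    word (l.flatMap F) i = l.flatMap fun j => word (F j) i := by
  induction l with
  | nil => simp [word]
  | cons a l ih =>
    rw [List.flatMap_cons, List.flatMap_cons, ← ih]
    simp [word, List.map_append, List.filter_append]

lemma sqd_flatMap {m : ℕ} {J : Type*} (l : List J) (F : J → List (Fin m → ℝ)) (i j : Fin m) :
    sqd (l.flatMap F) i j = (l.map fun a => sqd (F a) i j).sum := by
  induction l with
  | nil => simp [sqd]
  | cons a l ih =>
    rw [List.flatMap_cons, List.map_cons, List.sum_cons, ← ih]
    simp [sqd, List.map_append, List.sum_append]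

/-- The reduction of the Ramsey property to words. -/
theorem ramsey_of_words {m : ℕ} {E : Type*} [Dist E] (a : Fin m → E)
    (ha : ∀ i j, 0 ≤ dist (a i) (a j))
    (H : ∀ k : ℕ, ∃ w : Fin m → List ℝ, ∀ t : ℕ, 1 ≤ t → t ≤ k → ∃ cols : List (Fin m → ℝ),
      (∀ i, word cols i = w i) ∧ ∀ i j, (t : ℝ) * sqd cols i j = dist (a i) (a j) ^ 2) :
    IsRamsey a := by
  classical
  intro r hr
  haveI : Nonempty (Fin r) := ⟨⟨0, by omega⟩⟩
  by_contra! hcon
  choose c hc using fun D : ℕ => hcon (D + 1) (Nat.le_add_left 1 D)
  set col : (ℕ →₀ ℝ) → Fin r := fun z =>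
    ulim fun D => c D (WithLp.toLp 2 fun d : Fin (D + 1) => z d) with hcol
  obtain ⟨ι, _, hι⟩ := Combinatorics.Line.exists_mono_in_high_dimension (Fin m) (Fin r)
  obtain ⟨w, hw⟩ := H (Fintype.card ι)
  set L : List ι := (univ : Finset ι).toList
  obtain ⟨l, col₀, hl⟩ := hι fun p => limCol col (L.flatMap fun j => w (p j)) 0
  set S := univ.filter fun j => l.idxFun j = none with hS
  set t := S.card with ht
  have ht1 : 1 ≤ t := by
    obtain ⟨j, hj⟩ := l.proper
    exact card_pos.2 ⟨j, by simp [hS, hj]⟩
  obtain ⟨cols, hcols, hdist⟩ := hw t ht1 (card_le_univ _)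
  let F : ι → List (Fin m → ℝ) := fun j =>
    (l.idxFun j).elim cols fun p => cols.map fun v _ => v p
  obtain ⟨y, hy, -, hyd⟩ := exists_placement col (L.flatMap F) (fun _ => 0) 0
  have hword : ∀ i, word (L.flatMap F) i = L.flatMap fun j => w (l i j) := by
    intro i
    rw [word_flatMap]
    congr 1
    funext j
    rcases hj : l.idxFun j with _ | p
    · simp [F, hj, hcols]
    · rw [Combinatorics.Line.apply_some hj, ← hcols p]
      simp [F, hj, word, List.map_map, Function.comp_def]
  have hmono : ∀ i, col (y i) = col₀ := fun i => by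
    have := hy i
    rw [zero_add, hword i] at this
    exact this.trans (hl i)
  have hd : ∀ i j, sqd (L.flatMap F) i j = dist (a i) (a j) ^ 2 := by
    intro i j
    rw [sqd_flatMap, Finset.sum_map_toList, ← hdist i j, ht, ← nsmul_eq_mul, ← sum_const,
      sum_filter]
    refine sum_congr rfl fun x _ => ?_
    rcases hx : l.idxFun x with _ | p
    · simp [F, hx]
    · simp [F, hx, sqd, Function.comp_def]
  have hev : ∀ᶠ D in (hyperfilter ℕ : Filter ℕ),
      (∀ i, c D (WithLp.toLp 2 fun d : Fin (D + 1) => y i d) = col₀) ∧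
        ∀ i j, ∑ n ∈ range (D + 1), (y i n - y j n) ^ 2 = dist (a i) (a j) ^ 2 := by
    refine (eventually_all.2 fun i => ?_).and (eventually_all.2 fun i => eventually_all.2 fun j => ?_)
    · rw [← hmono i]
      exact ulim_spec _
    · rw [← hd i j]
      have h1 : ∀ᶠ D in atTop, ∑ n ∈ range (D + 1), (y i n - y j n) ^ 2 = sqd (L.flatMap F) i j :=
        (tendsto_add_atTop_nat 1).eventually (hyd i j)
      exact h1.filter_mono (Nat.cofinite_eq_atTop ▸ hyperfilter_le_cofinite)
  obtain ⟨D, h1, h2⟩ := hev.exists
  obtain ⟨i, j, hij⟩ := hc D (fun i => WithLp.toLp 2 fun d : Fin (D + 1) => y i d) fun i j => by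
    rw [EuclideanSpace.dist_eq, ← Real.sqrt_sq (ha i j), ← h2 i j,
      ← Fin.sum_univ_eq_sum_range (fun n => (y i n - y j n) ^ 2)]
    simp [Real.dist_eq, sq_abs]
  exact hij ((h1 i).trans (h1 j).symm)

end Vale.Agent.P058.Kite
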