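import Vale.Agent.P058.Kite.Reduce

/-!
The words of the cyclic kite.

Four shift polynomials applied to a windowed cosine or sine give four rows which satisfy the affine
relation of the kite both as they stand and after shifting the `i`-th row by `off i`. As they stand
the rows are nearly equal, while after shifting they form the kite. Two further columns make both
Gram matrices exact multiples of the one of the kite, with an arbitrarily small ratio.
-/

namespace Vale.Agent.P058.Kite

open Finset

/-- Columns of four entries. -/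
abbrev Cols := List (Fin 4 → ℝ)

variable {α : ℝ}

/-- The affine relation of the kite. -/
def Rel (α : ℝ) (v : Fin 4 → ℝ) : Prop :=
  v 2 + v 3 = (1 + α) * v 0 + (1 - α) * v 1

/-- Half the height of the kite. -/
noncomputable def ht (α : ℝ) : ℝ := √(1 - α ^ 2)

/-- The coefficient of the first axis in a column. -/
noncomputable def cu (v : Fin 4 → ℝ) : ℝ := (v 0 - v 1) / 2

/-- The coefficient of the second axis in a column. -/
noncomputable def cw (α : ℝ) (v : Fin 4 → ℝ) : ℝ := (v 2 - v 3) / (2 * ht α)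

/-- First coordinates of the kite. -/
def ptX (α : ℝ) : Fin 4 → ℝ := ![1, -1, α, α]

/-- Second coordinates of the kite. -/
noncomputable def ptY (α : ℝ) : Fin 4 → ℝ := ![0, 0, ht α, -ht α]

/-- The total square of the first coefficient. -/
noncomputable def sU (cols : Cols) : ℝ := (cols.map fun v => cu v ^ 2).sum

/-- The total square of the second coefficient. -/
noncomputable def sW (α : ℝ) (cols : Cols) : ℝ := (cols.map fun v => cw α v ^ 2).sum

/-- The total product of the coefficients. -/
noncomputable def sUW (α : ℝ) (cols : Cols) : ℝ := (cols.map fun v => cu v * cw α v).sum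

lemma ht_pos (h : |α| < 1) : 0 < ht α := by
  obtain ⟨h1, h2⟩ := abs_lt.1 h
  exact Real.sqrt_pos.2 (by nlinarith)

lemma ht_sq (h : |α| < 1) : ht α ^ 2 = 1 - α ^ 2 := by
  obtain ⟨h1, h2⟩ := abs_lt.1 h
  exact Real.sq_sqrt (by nlinarith)

lemma dist_pts (α : ℝ) (i j : Fin 4) :
    dist (pts α i) (pts α j) ^ 2 = (ptX α i - ptX α j) ^ 2 + (ptY α i - ptY α j) ^ 2 := by
  rw [EuclideanSpace.dist_sq_eq, Fin.sum_univ_two]
  fin_cases i <;> fin_cases j <;> simp [pts, ptX, ptY, ht, Real.dist_eq, sq_abs]

lemma col_diff (h : |α| < 1) {v : Fin 4 → ℝ} (hv : Rel α v) (i j : Fin 4) :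
    v i - v j = cu v * (ptX α i - ptX α j) + cw α v * (ptY α i - ptY α j) := by
  have hne : ht α ≠ 0 := (ht_pos h).ne'
  unfold Rel at hv
  fin_cases i <;> fin_cases j <;> simp [cu, cw, ptX, ptY] <;> field_simp <;>
    first
      | linear_combination hv
      | linear_combination -hv
      | linear_combination (ht α) * hv
      | linear_combination -(ht α) * hv
      | linear_combination 2 * (ht α) * hv
      | linear_combination -2 * (ht α) * hv
      | linear_combination (1 / 2 : ℝ) * hv
      | linear_combination -(1 / 2 : ℝ) * hv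
      | ring

lemma sqd_eq (h : |α| < 1) {cols : Cols} (hR : ∀ v ∈ cols, Rel α v) (i j : Fin 4) :
    sqd cols i j = sU cols * (ptX α i - ptX α j) ^ 2
      + 2 * sUW α cols * ((ptX α i - ptX α j) * (ptY α i - ptY α j))
      + sW α cols * (ptY α i - ptY α j) ^ 2 := by
  induction cols with
  | nil => simp [sqd, sU, sUW, sW]
  | cons v cols ih =>
    have h1 := ih fun x hx => hR x (List.mem_cons_of_mem _ hx)
    simp only [sqd, sU, sUW, sW, List.map_cons, List.sum_cons] at h1 ⊢
    rw [col_diff h (hR v List.mem_cons_self) i j]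
    linear_combination h1

lemma sq_sum_word {m : ℕ} (cols : List (Fin m → ℝ)) (i : Fin m) :
    ((word cols i).map fun a => a ^ 2).sum = (cols.map fun v => v i ^ 2).sum := by
  induction cols with
  | nil => simp [word]
  | cons v cols ih =>
    by_cases hv : v i = 0
    · simpa [word, hv] using ih
    · simpa [word, hv] using ih

lemma excess (h : |α| < 1) {cols : Cols} (hR : ∀ v ∈ cols, Rel α v) :
    2 * ht α ^ 2 * (sW α cols - sU cols)
      = -(1 + α) * (cols.map fun v => v 0 ^ 2).sum - (1 - α) * (cols.map fun v => v 1 ^ 2).sum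
        + (cols.map fun v => v 2 ^ 2).sum + (cols.map fun v => v 3 ^ 2).sum := by
  induction cols with
  | nil => simp [sU, sW]
  | cons v cols ih =>
    have h1 := ih fun x hx => hR x (List.mem_cons_of_mem _ hx)
    have hv : Rel α v := hR v List.mem_cons_self
    have hne : ht α ≠ 0 := (ht_pos h).ne'
    have h2 : ht α ^ 2 * cw α v ^ 2 = ((v 2 - v 3) / 2) ^ 2 := by
      rw [cw]; field_simp
    simp only [sU, sW, List.map_cons, List.sum_cons] at h1 ⊢
    unfold Rel at hv
    have h3 := ht_sq h
    unfold cu at *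
    linear_combination h1 + 2 * h2 - (v 2 + v 3 + (1 + α) * v 0 + (1 - α) * v 1) / 2 * hv
      - (v 0 - v 1) ^ 2 / 2 * h3

/-- Exchanging the symmetric pair. -/
def mirror (v : Fin 4 → ℝ) : Fin 4 → ℝ := ![v 0, v 1, v 3, v 2]

lemma rel_mirror {v : Fin 4 → ℝ} (hv : Rel α v) : Rel α (mirror v) := by
  unfold Rel at *; simp [mirror]; linarith

lemma mirror_sums (cols : Cols) :
    sU (cols.map mirror) = sU cols ∧ sW α (cols.map mirror) = sW α cols
      ∧ sUW α (cols.map mirror) = -sUW α cols := by
  induction cols with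
  | nil => simp [sU, sW, sUW]
  | cons v cols ih =>
    obtain ⟨h1, h2, h3⟩ := ih
    simp only [sU, sW, sUW, List.map_cons, List.sum_cons] at *
    rw [h1, h2, h3]
    refine ⟨?_, ?_, ?_⟩ <;> simp [cu, cw, mirror] <;> ring

lemma word_append {m : ℕ} (A B : List (Fin m → ℝ)) (i : Fin m) :
    word (A ++ B) i = word A i ++ word B i := by
  simp [word]

lemma word_mirror (cols : Cols) (i : Fin 4) :
    word (cols.map mirror) i = word cols (![0, 1, 3, 2] i) := by
  fin_cases i <;> simp [word, List.map_map, Function.comp_def, mirror]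

lemma sums_append (A B : Cols) :
    sU (A ++ B) = sU A + sU B ∧ sW α (A ++ B) = sW α A + sW α B
      ∧ sUW α (A ++ B) = sUW α A + sUW α B := by
  simp [sU, sW, sUW]

lemma sum_sq_nonneg {T : Type*} (l : List T) (g : T → ℝ) : 0 ≤ (l.map fun v => g v ^ 2).sum :=
  List.sum_nonneg fun x hx => by
    obtain ⟨v, -, rfl⟩ := List.mem_map.1 hx
    exact sq_nonneg _

/-- From two alignments of the same words to two exact copies of very different sizes. -/
lemma exists_exact_pair (h : |α| < 1) {A B : Cols} (hA : ∀ v ∈ A, Rel α v) (hB : ∀ v ∈ B, Rel α v)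
    (hw : ∀ i, word A i = word B i) :
    ∃ A' B' : Cols, ∃ S : ℝ, (∀ i, word A' i = word B' i) ∧ 2 * sU A ≤ S ∧
      (∀ i j, sqd A' i j = S * dist (pts α i) (pts α j) ^ 2) ∧
      ∀ i j, sqd B' i j = 2 * (sU B + sW α B) * dist (pts α i) (pts α j) ^ 2 := by
  set p := 2 * sW α B
  set q := 2 * sU B
  have hp : 0 ≤ p := mul_nonneg two_pos.le (sum_sq_nonneg _ _)
  have hq : 0 ≤ q := mul_nonneg two_pos.le (sum_sq_nonneg _ _)
  have hne : ht α ≠ 0 := (ht_pos h).ne'
  set K : Cols := [fun i => √p * ptX α i, fun i => √q * ptY α i] with hK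
  have hKR : ∀ v ∈ K, Rel α v := by
    intro v hv
    simp [hK] at hv
    rcases hv with rfl | rfl <;> simp [Rel, ptX, ptY]; ring
  have hKs : sU K = p ∧ sW α K = q ∧ sUW α K = 0 := by
    refine ⟨?_, ?_, ?_⟩
    · simp [sU, hK, cu, ptX, ptY, Real.sq_sqrt hp]
    · have e : (√q * ht α - √q * -ht α) / (2 * ht α) = √q := by field_simp; ring
      simp [sW, hK, cw, ptX, ptY]
      rw [show √q * ht α + √q * ht α = √q * ht α - √q * -ht α by ring, e, Real.sq_sqrt hq]
    · simp [sUW, hK, cu, cw, ptX, ptY]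
  have hrel : ∀ X : Cols, (∀ v ∈ X, Rel α v) → ∀ v ∈ X ++ X.map mirror ++ K, Rel α v := by
    intro X hX v hv
    simp only [List.mem_append, List.mem_map] at hv
    rcases hv with (hv | ⟨x, hx, rfl⟩) | hv
    exacts [hX v hv, rel_mirror (hX x hx), hKR v hv]
  have hsums : ∀ X : Cols, sU (X ++ X.map mirror ++ K) = 2 * sU X + p
      ∧ sW α (X ++ X.map mirror ++ K) = 2 * sW α X + q ∧ sUW α (X ++ X.map mirror ++ K) = 0 := by
    intro X
    obtain ⟨a1, a2, a3⟩ := mirror_sums (α := α) X
    obtain ⟨b1, b2, b3⟩ := sums_append (α := α) X (X.map mirror)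
    obtain ⟨c1, c2, c3⟩ := sums_append (α := α) (X ++ X.map mirror) K
    rw [c1, c2, c3, b1, b2, b3, a1, a2, a3, hKs.1, hKs.2.1, hKs.2.2]
    exact ⟨by ring, by ring, by ring⟩
  have hkey : sW α A - sU A = sW α B - sU B := by
    have e1 := excess h hA
    have e2 := excess h hB
    simp only [← sq_sum_word, hw] at e1 e2
    exact mul_left_cancel₀ (mul_ne_zero two_ne_zero (pow_ne_zero 2 hne)) (e1.trans e2.symm)
  refine ⟨A ++ A.map mirror ++ K, B ++ B.map mirror ++ K, 2 * sU A + p, fun i => ?_, by linarith,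
    fun i j => ?_, fun i j => ?_⟩
  · simp only [word_append, word_mirror, hw]
  · obtain ⟨s1, s2, s3⟩ := hsums A
    rw [sqd_eq h (hrel A hA), s1, s2, s3, dist_pts,
      show 2 * sW α A + q = 2 * sU A + p by simp only [p, q]; linarith]
    ring
  · obtain ⟨s1, s2, s3⟩ := hsums B
    rw [sqd_eq h (hrel B hB), s1, s2, s3, dist_pts]
    simp only [p, q]
    ring

/-- A shift by `o` steps. -/
def sh (o : ℕ) (f : ℕ → ℝ) (n : ℕ) : ℝ := if o ≤ n then f (n - o) else 0

lemma sh_zero (f : ℕ → ℝ) (n : ℕ) : sh 0 f n = f n := by simp [sh]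

lemma word_shift (o P M : ℕ) (f : ℕ → ℝ) (hf : ∀ n, P ≤ n → f n = 0) (hM : o + P ≤ M) :
    ((List.range M).map (sh o f)).filter (fun a => decide (a ≠ 0))
      = ((List.range P).map f).filter (fun a => decide (a ≠ 0)) := by
  obtain ⟨Q, rfl⟩ := Nat.exists_eq_add_of_le hM
  rw [List.range_add, List.range_add, List.map_append, List.map_append, List.filter_append,
    List.filter_append]
  have h1 : ((List.range o).map (sh o f)).filter (fun a => decide (a ≠ 0)) = [] := by
    simp only [List.filter_eq_nil_iff, List.mem_map, List.mem_range]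
    rintro a ⟨n, hn, rfl⟩
    simp [sh, Nat.not_le.2 hn]
  have h2 : (((List.range P).map (o + ·)).map (sh o f)) = (List.range P).map f := by
    rw [List.map_map]
    exact List.map_congr_left fun n _ => by simp [sh]
  have h3 : (((List.range Q).map (o + P + ·)).map (sh o f)).filter (fun a => decide (a ≠ 0))
      = [] := by
    simp only [List.filter_eq_nil_iff, List.mem_map, List.mem_range]
    rintro a ⟨_, ⟨n, _, rfl⟩, rfl⟩
    simp [sh, show o ≤ o + P + n by omega, hf (o + P + n - o) (by omega)]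
  rw [h1, h2, h3, List.nil_append, List.append_nil]

/-- Cutting off a signal. -/
def win (L : ℕ) (f : ℕ → ℝ) (n : ℕ) : ℝ := if n < L then f n else 0

/-- The shift of each row. -/
def off (N s : ℕ) : Fin 4 → ℕ := ![0, N, s, 2 * N - s]

/-- The four rows, in terms of the four shifted signals. -/
noncomputable def mix (α : ℝ) (T : Fin 4 → ℝ) : Fin 4 → ℝ :=
  ![T 1 - T 2, ((1 + α) * (T 2 - T 0) - (T 2 - T 3)) / (1 - α),
    -(1 + α) * (T 0 - T 1) + (T 3 - T 1), T 1 - T 2]

/-- The rows as they stand. -/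
noncomputable def row (α : ℝ) (N s : ℕ) (u : ℕ → ℝ) (i : Fin 4) (n : ℕ) : ℝ :=
  mix α (fun j => sh (off N s j) u n) i

/-- The rows as they stand, as columns. -/
noncomputable def flat (α : ℝ) (N s M : ℕ) (u : ℕ → ℝ) : Cols :=
  (List.range M).map fun n i => row α N s u i n

/-- The shifted rows, as columns. -/
noncomputable def skew (α : ℝ) (N s M : ℕ) (u : ℕ → ℝ) : Cols :=
  (List.range M).map fun n i => sh (off N s i) (row α N s u i) n

lemma sh_mix (o : ℕ) (T : Fin 4 → ℕ → ℝ) (i : Fin 4) (n : ℕ) :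
    sh o (fun n => mix α (fun j => T j n) i) n = mix α (fun j => sh o (T j) n) i := by
  by_cases hn : o ≤ n
  · simp [sh, hn]
  · fin_cases i <;> simp [sh, hn, mix]

lemma sh_sh (o p : ℕ) (f : ℕ → ℝ) (n : ℕ) : sh o (sh p f) n = sh (o + p) f n := by
  unfold sh
  split_ifs <;> first | rfl | omega | rw [Nat.sub_sub]

lemma skew_entry (N s : ℕ) (u : ℕ → ℝ) (i : Fin 4) (n : ℕ) :
    sh (off N s i) (row α N s u i) n = mix α (fun j => sh (off N s i + off N s j) u n) i := by
  simp only [← sh_sh]
  exact sh_mix (off N s i) (fun j => sh (off N s j) u) i n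

lemma rel_flat (h : α ≠ 1) (N s M : ℕ) (u : ℕ → ℝ) : ∀ v ∈ flat α N s M u, Rel α v := by
  intro v hv
  simp only [flat, List.mem_map] at hv
  obtain ⟨n, -, rfl⟩ := hv
  have : 1 - α ≠ 0 := sub_ne_zero.2 (Ne.symm h)
  simp [Rel, row, mix]
  field_simp
  ring

lemma rel_skew (h : α ≠ 1) (N s M : ℕ) (u : ℕ → ℝ) : ∀ v ∈ skew α N s M u, Rel α v := by
  intro v hv
  simp only [skew, List.mem_map] at hv
  obtain ⟨n, -, rfl⟩ := hv
  have : 1 - α ≠ 0 := sub_ne_zero.2 (Ne.symm h)
  simp only [Rel, skew_entry]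
  simp [mix, off, Nat.add_comm]
  field_simp
  ring_nf

lemma word_skew_eq {N s L : ℕ} (hs : s ≤ N) (f : ℕ → ℝ) (i : Fin 4) :
    word (skew α N s (L + 4 * N) (win L f)) i = word (flat α N s (L + 4 * N) (win L f)) i := by
  have hoff : ∀ j, off N s j ≤ 2 * N := fun j => by
    fin_cases j <;> simp [off] <;> omega
  have h0 : ∀ n, L + 2 * N ≤ n → row α N s (win L f) i n = 0 := by
    intro n hn
    have : ∀ j, sh (off N s j) (win L f) n = 0 := fun j => by
      have := hoff j
      simp [sh, win, show off N s j ≤ n by omega, show ¬ n - off N s j < L by omega]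
    fin_cases i <;> simp [row, mix, this]
  have e1 := word_shift (off N s i) (L + 2 * N) (L + 4 * N) _ h0 (by linarith [hoff i])
  have e2 := word_shift 0 (L + 2 * N) (L + 4 * N) _ h0 (by omega)
  simp only [word, skew, flat, List.map_map, Function.comp_def]
  rw [e1, ← e2, show sh 0 (row α N s (win L f) i) = row α N s (win L f) i from funext (sh_zero _)]

/-- The shifted signals where none of them is cut off. -/
lemma interior {N s L n : ℕ} (hN : 0 < N) (hs : s ≤ N) (hn : 2 * N ≤ n) (hnL : n < L) (a b : ℝ) :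
    let φ := Real.pi / N
    ∀ j, sh (off N s j) (win L fun m => a * Real.cos (φ * m) + b * Real.sin (φ * m)) n =
      ![a * Real.cos (φ * n) + b * Real.sin (φ * n), -(a * Real.cos (φ * n) + b * Real.sin (φ * n)),
        (a * Real.cos (φ * n) + b * Real.sin (φ * n)) * Real.cos (φ * s)
          + (a * Real.sin (φ * n) - b * Real.cos (φ * n)) * Real.sin (φ * s),
        (a * Real.cos (φ * n) + b * Real.sin (φ * n)) * Real.cos (φ * s)
          - (a * Real.sin (φ * n) - b * Real.cos (φ * n)) * Real.sin (φ * s)] j := by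
  intro φ j
  have hφ : φ * N = Real.pi := div_mul_cancel₀ _ (by exact_mod_cast hN.ne')
  have key : ∀ o, o ≤ n → ∀ f : ℕ → ℝ, sh o (win L f) n = f (n - o) := fun o ho f => by
    simp [sh, win, ho, show n - o < L by omega]
  have hoff : off N s j ≤ n := by fin_cases j <;> simp [off] <;> omega
  rw [key _ hoff]
  fin_cases j <;> simp [off]
  · rw [Nat.cast_sub (show N ≤ n by omega), mul_sub, hφ, Real.cos_sub_pi, Real.sin_sub_pi]
    ring
  · rw [Nat.cast_sub (show s ≤ n by omega), mul_sub, Real.cos_sub, Real.sin_sub]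
    ring
  · rw [Nat.cast_sub (show 2 * N - s ≤ n by omega), Nat.cast_sub (show s ≤ 2 * N by omega)]
    push_cast
    rw [show φ * ((n : ℝ) - (2 * N - s)) = φ * n + φ * s - 2 * Real.pi by
        linear_combination (-2 : ℝ) * hφ,
      Real.cos_sub_two_pi, Real.sin_sub_two_pi, Real.cos_add, Real.sin_add]
    ring

lemma sU_range (M : ℕ) (g : ℕ → Fin 4 → ℝ) :
    sU ((List.range M).map g) = ∑ n ∈ range M, cu (g n) ^ 2 := by
  simp only [sU, List.map_map]; rfl

lemma sW_range (M : ℕ) (g : ℕ → Fin 4 → ℝ) :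
    sW α ((List.range M).map g) = ∑ n ∈ range M, cw α (g n) ^ 2 := by
  simp only [sW, List.map_map]; rfl

end Vale.Agent.P058.Kite
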